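import Mathlib

/-!
Straight-line drawings of `K_{m,n}` in which one class lies on a line: Zarankiewicz's bound holds.
-/

namespace Vale.Agent.Results.P040.A_collinear

open Finset

/-- The Zarankiewicz factor `d_r = ⌊r/2⌋ ⌊(r-1)/2⌋`. -/
def zFactor (r : ℕ) : ℕ := (r / 2) * ((r - 1) / 2)

open Classical in
/-- The number of unordered pairs of vertex-disjoint edges that cross, in the straight-line drawing of
`K_{m,n}` with vertices `(a k, 0)` and `b i`: a pair of edges `{(b i, a k), (b j, a l)}` with `i ≠ j`
and `k ≠ l` is listed once, by the quadruple with `i < j`, and it crosses when the two open segments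
meet. -/
noncomputable def crossingCount {m n : ℕ} (a : Fin m → ℝ) (b : Fin n → ℝ × ℝ) : ℕ :=
  ((univ : Finset ((Fin n × Fin n) × (Fin m × Fin m))).filter fun q =>
    q.1.1 < q.1.2 ∧ q.2.1 ≠ q.2.2 ∧
      (openSegment ℝ (b q.1.1) (a q.2.1, (0 : ℝ)) ∩
        openSegment ℝ (b q.1.2) (a q.2.2, (0 : ℝ))).Nonempty).card

lemma div_pos_of_same_sign {x w q : ℝ} (hx : 0 < x * q) (hw : 0 < w * q) : 0 < x / w := by
  rcases pos_and_pos_or_neg_and_neg_of_mul_pos hx with ⟨h1, h2⟩ | ⟨h1, h2⟩
  · have hw' : 0 < w := by
      by_contra h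
      push Not at h
      nlinarith
    exact div_pos h1 hw'
  · have hw' : w < 0 := by
      by_contra h
      push Not at h
      nlinarith
    exact div_pos_of_neg_of_neg h1 hw'

/-- The crossing point: same-side apexes `x`, `y` and feet `s < s'` on the same side of the line `xy`. -/
lemma cross_core (x y : ℝ × ℝ) (s s' : ℝ) (hqq : 0 < x.2 * y.2) (hss : s < s')
    (h1 : 0 < ((x.1 - s) * y.2 - x.2 * (y.1 - s)) * x.2)
    (h2 : 0 < ((x.1 - s') * y.2 - x.2 * (y.1 - s')) * x.2) :
    (openSegment ℝ x (s, (0 : ℝ)) ∩ openSegment ℝ y (s', (0 : ℝ))).Nonempty := by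
  obtain ⟨p, q⟩ := x
  obtain ⟨p', q'⟩ := y
  simp only at hqq h1 h2
  have hd : 0 < s' - s := sub_pos.mpr hss
  set d := s' - s with hd_def
  set w := (p - s) * q' - q * (p' - s') with hw_def
  have hfs : (p - s) * q' - q * (p' - s) = w - q * d := by
    simp only [hw_def, hd_def]; ring
  have hfs' : (p - s') * q' - q * (p' - s') = w - q' * d := by
    simp only [hw_def, hd_def]; ring
  rw [hfs] at h1
  rw [hfs'] at h2
  have hqq' : 0 < q * q := by
    have : q ≠ 0 := by
      rintro rfl
      simp at hqq
    exact mul_self_pos.mpr this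
  have hwq : 0 < w * q := by nlinarith [mul_pos hd hqq']
  have hw0 : w ≠ 0 := by
    rintro h
    rw [h] at hwq
    simp at hwq
  have hq'q : 0 < q' * q := by linarith [mul_comm q q']
  have e1 : 0 < q' / w := div_pos_of_same_sign hq'q hwq
  have e2 : 0 < q / w := div_pos_of_same_sign hqq' hwq
  have e3 : 0 < (w - q' * d) / w := div_pos_of_same_sign h2 hwq
  have e4 : 0 < (w - q * d) / w := div_pos_of_same_sign h1 hwq
  have ht : 0 < d * (q' / w) := mul_pos hd e1
  have hu : 0 < d * (q / w) := mul_pos hd e2
  have ht' : d * (q' / w) + (w - q' * d) / w = 1 := by field_simp; ring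
  have hu' : d * (q / w) + (w - q * d) / w = 1 := by field_simp; ring
  refine ⟨(d * (q' / w)) • (p, q) + ((w - q' * d) / w) • (s, (0 : ℝ)), ?_, ?_⟩
  · exact ⟨_, _, ht, e3, ht', rfl⟩
  · refine ⟨d * (q / w), (w - q * d) / w, hu, e4, hu', ?_⟩
    ext
    · simp only [Prod.fst_add, Prod.smul_fst, smul_eq_mul]
      simp only [hw_def, hd_def]
      have hw1 : (p - s) * q' - q * (p' - s') ≠ 0 := hw0
      field_simp
      ring
    · simp only [Prod.snd_add, Prod.smul_snd, smul_eq_mul, mul_zero, add_zero]
      field_simp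

/-- Ordered pairs in a set on which `g` is injective, listed in increasing order of `g`. -/
lemma two_mul_card_lt {ι γ : Type*} [DecidableEq ι] [LinearOrder γ] (T : Finset ι) (g : ι → γ)
    (hg : Function.Injective g) :
    2 * ((T ×ˢ T).filter fun q => g q.1 < g q.2).card = T.card * (T.card - 1) := by
  have hsplit : T.offDiag = ((T ×ˢ T).filter fun q => g q.1 < g q.2) ∪
      ((T ×ˢ T).filter fun q => g q.2 < g q.1) := by
    ext ⟨k, l⟩
    simp only [mem_offDiag, mem_union, mem_filter, mem_product]
    constructor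
    · rintro ⟨hk, hl, hne⟩
      rcases lt_or_gt_of_ne (fun h => hne (hg h)) with h | h
      · exact Or.inl ⟨⟨hk, hl⟩, h⟩
      · exact Or.inr ⟨⟨hk, hl⟩, h⟩
    · rintro (⟨⟨hk, hl⟩, h⟩ | ⟨⟨hk, hl⟩, h⟩)
      · exact ⟨hk, hl, fun e => by subst e; exact lt_irrefl _ h⟩
      · exact ⟨hk, hl, fun e => by subst e; exact lt_irrefl _ h⟩
  have hdisj : Disjoint ((T ×ˢ T).filter fun q => g q.1 < g q.2)
      ((T ×ˢ T).filter fun q => g q.2 < g q.1) := by
    rw [Finset.disjoint_left]
    intro q h1 h2
    simp only [mem_filter] at h1 h2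
    exact lt_asymm h1.2 h2.2
  have hswap : ((T ×ˢ T).filter fun q => g q.2 < g q.1).card =
      ((T ×ˢ T).filter fun q => g q.1 < g q.2).card := by
    refine Finset.card_bij (fun q _ => (q.2, q.1)) ?_ ?_ ?_
    · intro q hq
      simp only [mem_filter, mem_product] at hq ⊢
      exact ⟨⟨hq.1.2, hq.1.1⟩, hq.2⟩
    · rintro ⟨a1, a2⟩ _ ⟨b1, b2⟩ _ h
      simp only [Prod.mk.injEq] at h
      exact Prod.ext h.2 h.1
    · rintro ⟨a1, a2⟩ h
      refine ⟨(a2, a1), ?_, rfl⟩
      simp only [mem_filter, mem_product] at h ⊢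
      exact ⟨⟨h.1.2, h.1.1⟩, h.2⟩
  have hoff := Finset.offDiag_card T
  rw [hsplit, card_union_of_disjoint hdisj, hswap] at hoff
  rw [two_mul, hoff, Nat.mul_sub, mul_one]

lemma two_zFactor_le (l r : ℕ) : 2 * zFactor (l + r) ≤ l * (l - 1) + r * (r - 1) := by
  have hl : l * (l - 1) + l = l * l := by
    cases l with
    | zero => simp
    | succ c => simp only [Nat.add_sub_cancel]; ring
  have hr : r * (r - 1) + r = r * r := by
    cases r with
    | zero => simp
    | succ c => simp only [Nat.add_sub_cancel]; ring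
  rcases Nat.even_or_odd' (l + r) with ⟨t, ht | ht⟩
  · have hz : zFactor (l + r) = t * (t - 1) := by
      unfold zFactor
      rw [ht]
      have h1 : 2 * t / 2 = t := by omega
      have h2 : (2 * t - 1) / 2 = t - 1 := by omega
      rw [h1, h2]
    have ht1 : t * (t - 1) + t = t * t := by
      cases t with
      | zero => simp
      | succ c => simp only [Nat.add_sub_cancel]; ring
    rw [hz]
    have key : 2 * (t * t) ≤ l * l + r * r := by
      zify at ht ⊢
      nlinarith [sq_nonneg ((l : ℤ) - r)]
    omega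
  · have hz : zFactor (l + r) = t * t := by
      unfold zFactor
      rw [ht]
      have h1 : (2 * t + 1) / 2 = t := by omega
      have h2 : (2 * t + 1 - 1) / 2 = t := by omega
      rw [h1, h2]
    rw [hz]
    have key : 2 * (t * t) + (l + r) ≤ l * l + r * r := by
      rw [ht]
      zify at ht ⊢
      have hrr : (r : ℤ) = 2 * t + 1 - l := by linarith
      rw [hrr]
      have hcons : 0 ≤ ((l : ℤ) - t) * ((l : ℤ) - t - 1) := by
        rcases le_or_gt (l : ℤ) t with h | h
        · exact mul_nonneg_of_nonpos_of_nonpos (by linarith) (by linarith)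
        · exact mul_nonneg (by linarith) (by linarith)
      nlinarith
    omega

/-- The common-side apexes with a collinear foot contradict the drawing condition. -/
lemma f_ne_zero (x y : ℝ × ℝ) (s : ℝ) (hqq : 0 < x.2 * y.2) (hne : x ≠ y)
    (h1 : y ∉ openSegment ℝ x (s, (0 : ℝ))) (h2 : x ∉ openSegment ℝ y (s, (0 : ℝ))) :
    (x.1 - s) * y.2 - x.2 * (y.1 - s) ≠ 0 := by
  obtain ⟨p, q⟩ := x
  obtain ⟨p', q'⟩ := y
  simp only at hqq ⊢
  intro h0
  have hq0 : q ≠ 0 := by
    rintro rfl
    simp at hqq
  have hq'0 : q' ≠ 0 := by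
    rintro rfl
    simp at hqq
  have hr : 0 < q' / q := div_pos_of_same_sign (by linarith [mul_comm q q']) (mul_pos_of_ne_zero hq0)
  have hr' : 0 < q / q' := div_pos_of_same_sign hqq (mul_pos_of_ne_zero hq'0)
  rcases lt_trichotomy (q' / q) 1 with hlt | heq | hgt
  · apply h1
    refine ⟨q' / q, 1 - q' / q, hr, by linarith, by ring, ?_⟩
    ext
    · simp only [Prod.fst_add, Prod.smul_fst, smul_eq_mul]
      field_simp
      linear_combination h0
    · simp only [Prod.snd_add, Prod.smul_snd, smul_eq_mul, mul_zero, add_zero]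
      field_simp
  · apply hne
    have hqq2 : q' = q := by
      field_simp at heq
      exact heq
    subst hqq2
    have : p = p' := by
      have : q' * (p - p') = 0 := by linear_combination h0
      rcases mul_eq_zero.mp this with h | h
      · exact absurd h hq0
      · linarith
    rw [this]
  · apply h2
    have hlt : q / q' < 1 := by
      rw [div_lt_one_iff]
      rw [one_lt_div_iff] at hgt
      rcases hgt with ⟨h3, h4⟩ | ⟨h3, h4⟩
      · exact Or.inl ⟨by
          by_contra hh
          push Not at hh
          nlinarith, h4⟩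
      · exact Or.inr (Or.inr ⟨by
          by_contra hh
          push Not at hh
          nlinarith, h4⟩)
    refine ⟨q / q', 1 - q / q', hr', by linarith, by ring, ?_⟩
    ext
    · simp only [Prod.fst_add, Prod.smul_fst, smul_eq_mul]
      field_simp
      linear_combination -h0
    · simp only [Prod.snd_add, Prod.smul_snd, smul_eq_mul, mul_zero, add_zero]
      field_simp
where
  mul_pos_of_ne_zero {c : ℝ} (hc : c ≠ 0) : 0 < c * c := mul_self_pos.mpr hc

/-- **Zarankiewicz's bound for straight-line drawings with one class collinear.** -/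
theorem result {m n : ℕ} (a : Fin m → ℝ) (b : Fin n → ℝ × ℝ)
    (ha : Function.Injective a) (hb : Function.Injective b)
    (hoff : ∀ i, (b i).2 ≠ 0)
    (hdraw : ∀ i j k, i ≠ j → b j ∉ openSegment ℝ (b i) (a k, (0 : ℝ))) :
    zFactor m * zFactor n ≤ crossingCount a b := by
  classical
  unfold crossingCount
  -- the crossing pairs in a fixed pair of stars
  let C : Fin n × Fin n → Finset (Fin m × Fin m) := fun p =>
    (univ : Finset (Fin m × Fin m)).filter fun kl => kl.1 ≠ kl.2 ∧
      (openSegment ℝ (b p.1) (a kl.1, (0 : ℝ)) ∩ openSegment ℝ (b p.2) (a kl.2, (0 : ℝ))).Nonempty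
  let U : Finset (Fin n) := univ.filter fun i => 0 < (b i).2
  let D : Finset (Fin n) := univ.filter fun i => (b i).2 < 0
  let PU : Finset (Fin n × Fin n) := (U ×ˢ U).filter fun q => id q.1 < id q.2
  let PD : Finset (Fin n × Fin n) := (D ×ˢ D).filter fun q => id q.1 < id q.2
  have hUD : U.card + D.card = n := by
    have hdisj : Disjoint U D := by
      rw [Finset.disjoint_left]
      intro i hi hi'
      simp only [U, D, mem_filter, mem_univ, true_and] at hi hi'
      exact lt_asymm hi hi'
    have hunion : U ∪ D = univ := by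
      ext i
      simp only [U, D, mem_union, mem_filter, mem_univ, true_and, iff_true]
      exact (lt_or_gt_of_ne (hoff i).symm)
    have := card_union_of_disjoint hdisj
    rw [hunion] at this
    simpa using this.symm
  have hPdisj : Disjoint PU PD := by
    rw [Finset.disjoint_left]
    intro q h1 h2
    simp only [PU, PD, U, D, mem_filter, mem_product, mem_univ, true_and] at h1 h2
    exact lt_asymm h1.1.1 h2.1.1
  have hP : zFactor n ≤ (PU ∪ PD).card := by
    rw [card_union_of_disjoint hPdisj]
    have h1 := two_mul_card_lt U (id : Fin n → Fin n) Function.injective_id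
    have h2 := two_mul_card_lt D (id : Fin n → Fin n) Function.injective_id
    have h3 := two_zFactor_le U.card D.card
    rw [hUD] at h3
    simp only [PU, PD]
    omega
  -- each same-side pair of stars has at least `zFactor m` crossings
  have hstar : ∀ p ∈ PU ∪ PD, zFactor m ≤ (C p).card := by
    rintro ⟨i, j⟩ hp
    have hij : i < j ∧ 0 < (b i).2 * (b j).2 := by
      simp only [PU, PD, U, D, mem_union, mem_filter, mem_product, mem_univ, true_and, id] at hp
      rcases hp with ⟨⟨h1, h2⟩, h3⟩ | ⟨⟨h1, h2⟩, h3⟩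
      · exact ⟨h3, mul_pos h1 h2⟩
      · exact ⟨h3, mul_pos_of_neg_of_neg h1 h2⟩
    obtain ⟨hlt, hqq⟩ := hij
    have hne : i ≠ j := ne_of_lt hlt
    let F : Fin m → ℝ := fun k =>
      ((b i).1 - a k) * (b j).2 - (b i).2 * ((b j).1 - a k)
    have hF : ∀ k, F k ≠ 0 := fun k =>
      f_ne_zero (b i) (b j) (a k) hqq (fun e => hne (hb e)) (hdraw i j k hne) (hdraw j i k hne.symm)
    have hq0 : (b i).2 ≠ 0 := hoff i
    let L : Finset (Fin m) := univ.filter fun k => 0 < F k * (b i).2
    let R : Finset (Fin m) := univ.filter fun k => F k * (b i).2 < 0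
    have hLR : L.card + R.card = m := by
      have hdisj : Disjoint L R := by
        rw [Finset.disjoint_left]
        intro k hk hk'
        simp only [L, R, mem_filter, mem_univ, true_and] at hk hk'
        exact lt_asymm hk hk'
      have hunion : L ∪ R = univ := by
        ext k
        simp only [L, R, mem_union, mem_filter, mem_univ, true_and, iff_true]
        exact (lt_or_gt_of_ne (mul_ne_zero (hF k) hq0)).symm
      have := card_union_of_disjoint hdisj
      rw [hunion] at this
      simpa using this.symm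
    -- the pairs from `L` and from `R`
    let SL : Finset (Fin m × Fin m) := (L ×ˢ L).filter fun q => a q.1 < a q.2
    let SR : Finset (Fin m × Fin m) := (R ×ˢ R).filter fun q => (-a) q.1 < (-a) q.2
    have hSdisj : Disjoint SL SR := by
      rw [Finset.disjoint_left]
      intro q h1 h2
      simp only [SL, SR, L, R, mem_filter, mem_product, mem_univ, true_and] at h1 h2
      exact lt_asymm h1.1.1 h2.1.1
    have hSsub : SL ∪ SR ⊆ C (i, j) := by
      rintro ⟨k, l⟩ hq
      simp only [mem_union, SL, SR, L, R, mem_filter, mem_product, mem_univ, true_and,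
        Pi.neg_apply, neg_lt_neg_iff] at hq
      simp only [C, mem_filter, mem_univ, true_and]
      rcases hq with ⟨⟨h1, h2⟩, h3⟩ | ⟨⟨h1, h2⟩, h3⟩
      · refine ⟨fun e => by subst e; exact lt_irrefl _ h3, ?_⟩
        exact cross_core (b i) (b j) (a k) (a l) hqq h3 h1 h2
      · refine ⟨fun e => by subst e; exact lt_irrefl _ h3, ?_⟩
        rw [Set.inter_comm]
        refine cross_core (b j) (b i) (a l) (a k) (by linarith [mul_comm (b i).2 (b j).2]) h3 ?_ ?_
        · have hh : 0 < (-(F l * (b i).2)) * ((b i).2 * (b j).2) := mul_pos (by linarith) hqq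
          have hsq : 0 < (b i).2 * (b i).2 := mul_self_pos.mpr hq0
          have : 0 < (((b j).1 - a l) * (b i).2 - (b j).2 * ((b i).1 - a l)) * (b j).2 := by
            have e : (-(F l * (b i).2)) * ((b i).2 * (b j).2) =
                (((b j).1 - a l) * (b i).2 - (b j).2 * ((b i).1 - a l)) * (b j).2 *
                  ((b i).2 * (b i).2) := by
              simp only [F]; ring
            rw [e] at hh
            exact (mul_pos_iff_of_pos_right hsq).mp hh
          exact this
        · have hh : 0 < (-(F k * (b i).2)) * ((b i).2 * (b j).2) := mul_pos (by linarith) hqq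
          have hsq : 0 < (b i).2 * (b i).2 := mul_self_pos.mpr hq0
          have : 0 < (((b j).1 - a k) * (b i).2 - (b j).2 * ((b i).1 - a k)) * (b j).2 := by
            have e : (-(F k * (b i).2)) * ((b i).2 * (b j).2) =
                (((b j).1 - a k) * (b i).2 - (b j).2 * ((b i).1 - a k)) * (b j).2 *
                  ((b i).2 * (b i).2) := by
              simp only [F]; ring
            rw [e] at hh
            exact (mul_pos_iff_of_pos_right hsq).mp hh
          exact this
    have h1 := two_mul_card_lt L a ha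
    have hna : Function.Injective (-a) := fun x y h => ha (neg_injective h)
    have h2 := two_mul_card_lt R (-a) hna
    have h3 := two_zFactor_le L.card R.card
    rw [hLR] at h3
    have h4 := card_le_card hSsub
    rw [card_union_of_disjoint hSdisj] at h4
    simp only [SL, SR] at h4
    omega
  -- assemble
  have hsum : (PU ∪ PD).card • zFactor m ≤ ∑ p ∈ PU ∪ PD, (C p).card :=
    Finset.card_nsmul_le_sum _ _ _ hstar
  have hsig : ∑ p ∈ PU ∪ PD, (C p).card ≤
      ((univ : Finset ((Fin n × Fin n) × (Fin m × Fin m))).filter fun q =>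
        q.1.1 < q.1.2 ∧ q.2.1 ≠ q.2.2 ∧
        (openSegment ℝ (b q.1.1) (a q.2.1, (0 : ℝ)) ∩
          openSegment ℝ (b q.1.2) (a q.2.2, (0 : ℝ))).Nonempty).card := by
    rw [← Finset.card_sigma]
    refine Finset.card_le_card_of_injOn (fun x => (x.1, x.2)) ?_ ?_
    · rintro ⟨p, kl⟩ hx
      simp only [Finset.coe_sigma, Set.mem_sigma_iff, mem_coe] at hx
      obtain ⟨hp, hkl⟩ := hx
      simp only [C, mem_filter, mem_univ, true_and] at hkl
      have hlt : p.1 < p.2 := by
        simp only [PU, PD, mem_union, mem_filter, id] at hp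
        rcases hp with h | h <;> exact h.2
      simp only [coe_filter, mem_univ, true_and, Set.mem_ofPred_eq]
      exact ⟨hlt, hkl.1, hkl.2⟩
    · rintro ⟨p, kl⟩ _ ⟨p', kl'⟩ _ h
      simp only [Prod.mk.injEq] at h
      obtain ⟨rfl, rfl⟩ := h
      rfl
  have hm : zFactor n * zFactor m ≤ (PU ∪ PD).card * zFactor m := Nat.mul_le_mul_right _ hP
  rw [smul_eq_mul] at hsum
  calc zFactor m * zFactor n = zFactor n * zFactor m := mul_comm _ _
    _ ≤ _ := hm.trans (hsum.trans hsig)

end Vale.Agent.Results.P040.A_collinear
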