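import Mathlib

/-!
Straight-line drawings of `K_{m,n}`: Zarankiewicz's bound holds whenever one class lies in at most four
cells of the arrangement of lines spanned by the other class.
-/

namespace Vale.Agent.Results.P040.B_fourCells

open Finset

/-- The Zarankiewicz factor `d_r = ⌊r/2⌋ ⌊(r-1)/2⌋`. -/
def zFactor (r : ℕ) : ℕ := (r / 2) * ((r - 1) / 2)

/-- Twice the signed area of the triangle `p q r`; its sign says on which side of the line `p q` the
point `r` lies, and it vanishes exactly on collinear triples. -/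
def orient (p q r : ℝ × ℝ) : ℝ := (q.1 - p.1) * (r.2 - p.2) - (q.2 - p.2) * (r.1 - p.1)

open Classical in
/-- The number of unordered pairs of vertex-disjoint edges that cross, in the straight-line drawing of
`K_{m,n}` with vertices `a k` and `b i`: a pair of edges `{(b i, a k), (b j, a l)}` with `i ≠ j` and
`k ≠ l` is listed once, by the quadruple with `i < j`, and it crosses when the two open segments meet. -/
noncomputable def crossingCount {m n : ℕ} (a : Fin m → ℝ × ℝ) (b : Fin n → ℝ × ℝ) : ℕ :=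
  ((univ : Finset ((Fin n × Fin n) × (Fin m × Fin m))).filter fun q =>
    q.1.1 < q.1.2 ∧ q.2.1 ≠ q.2.2 ∧
      (openSegment ℝ (b q.1.1) (a q.2.1) ∩ openSegment ℝ (b q.1.2) (a q.2.2)).Nonempty).card

/-! ### The crossing criterion -/

lemma div_pos_of_same_sign {x w q : ℝ} (hx : 0 < x * q) (hw : 0 < w * q) : 0 < x / w := by
  rcases pos_and_pos_or_neg_and_neg_of_mul_pos hx with ⟨h1, h2⟩ | ⟨h1, h2⟩
  · have hw' : 0 < w := by
      by_contra h
      push Not at h
      nlinarith
    exact div_pos h1 hw'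
  · have hw' : w < 0 := by
      by_contra h
      push Not at h
      nlinarith
    exact div_pos_of_neg_of_neg h1 hw'

/-- Four orientations of one sign give a crossing of `b a` and `b' a'`. -/
lemma cross_core (x y u v : ℝ × ℝ) (s : ℝ)
    (hL : 0 < orient x y u * s) (hL' : 0 < orient x y v * s)
    (hP : 0 < orient u v x * s) (hQ : 0 < orient u v y * s) :
    (openSegment ℝ x u ∩ openSegment ℝ y v).Nonempty := by
  obtain ⟨x1, x2⟩ := x
  obtain ⟨y1, y2⟩ := y
  obtain ⟨u1, u2⟩ := u
  obtain ⟨v1, v2⟩ := v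
  simp only [orient] at hL hL' hP hQ
  set L := (y1 - x1) * (u2 - x2) - (y2 - x2) * (u1 - x1) with hLdef
  set L' := (y1 - x1) * (v2 - x2) - (y2 - x2) * (v1 - x1) with hL'def
  set P := (v1 - u1) * (x2 - u2) - (v2 - u2) * (x1 - u1) with hPdef
  set Q := (v1 - u1) * (y2 - u2) - (v2 - u2) * (y1 - u1) with hQdef
  have hW : L + P = L' + Q := by
    simp only [hLdef, hL'def, hPdef, hQdef]; ring
  have hWs : 0 < (L + P) * s := by nlinarith
  have hWs' : 0 < (L' + Q) * s := by rw [← hW]; exact hWs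
  have hW0 : L + P ≠ 0 := by
    intro h
    rw [h] at hWs
    simp at hWs
  have e1 : 0 < Q / (L + P) := div_pos_of_same_sign hQ hWs
  have e2 : 0 < L' / (L + P) := div_pos_of_same_sign hL' hWs
  have e3 : 0 < P / (L + P) := div_pos_of_same_sign hP hWs
  have e4 : 0 < L / (L + P) := div_pos_of_same_sign hL hWs
  have s1 : Q / (L + P) + L' / (L + P) = 1 := by
    rw [← add_div, add_comm Q, ← hW]
    exact div_self hW0
  have s2 : P / (L + P) + L / (L + P) = 1 := by
    rw [← add_div, add_comm P]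
    exact div_self hW0
  refine ⟨(Q / (L + P)) • (x1, x2) + (L' / (L + P)) • (u1, u2), ⟨_, _, e1, e2, s1, rfl⟩,
    ⟨_, _, e3, e4, s2, ?_⟩⟩
  have hid1 : P * y1 + L * v1 = Q * x1 + L' * u1 := by
    simp only [hLdef, hL'def, hPdef, hQdef]; ring
  have hid2 : P * y2 + L * v2 = Q * x2 + L' * u2 := by
    simp only [hLdef, hL'def, hPdef, hQdef]; ring
  ext
  · simp only [Prod.fst_add, Prod.smul_fst, smul_eq_mul]
    field_simp
    linarith
  · simp only [Prod.snd_add, Prod.smul_snd, smul_eq_mul]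
    field_simp
    linarith

lemma orient_swap (u v x : ℝ × ℝ) : orient v u x = - orient u v x := by
  simp only [orient]; ring

/-- Feet on one side of the line of the apexes, apexes on one side of the line of the feet: one of the
two pairings crosses. -/
lemma cross_of_products (x y u v : ℝ × ℝ)
    (hL : 0 < orient x y u * orient x y v) (hP : 0 < orient u v x * orient u v y) :
    (openSegment ℝ x u ∩ openSegment ℝ y v).Nonempty ∨
      (openSegment ℝ x v ∩ openSegment ℝ y u).Nonempty := by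
  have hv := orient_swap u v x
  have hw := orient_swap u v y
  rcases pos_and_pos_or_neg_and_neg_of_mul_pos hL with ⟨h1, h2⟩ | ⟨h1, h2⟩ <;>
  rcases pos_and_pos_or_neg_and_neg_of_mul_pos hP with ⟨h3, h4⟩ | ⟨h3, h4⟩
  · exact Or.inl (cross_core x y u v 1 (by simpa) (by simpa) (by simpa) (by simpa))
  · exact Or.inr (cross_core x y v u 1 (by simpa) (by simpa) (by rw [hv]; simpa using h3)
      (by rw [hw]; simpa using h4))
  · exact Or.inr (cross_core x y v u (-1) (by simpa) (by simpa) (by rw [hv]; simpa using h3)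
      (by rw [hw]; simpa using h4))
  · exact Or.inl (cross_core x y u v (-1) (by simpa) (by simpa) (by simpa) (by simpa))

/-! ### The sign pattern in a triple of apexes -/

/-- The class of a sign pattern: at least two of the three signs are negative. -/
def twoNeg (p q r : Bool) : Bool := (!p && !q) || (!q && !r) || (!p && !r)

lemma tri_bool : ∀ p q r p' q' r' t1 t2 t3 : Bool,
    ¬(p = t3 ∧ q = t1 ∧ r = t2) → ¬(p ≠ t3 ∧ q ≠ t1 ∧ r ≠ t2) →
    ¬(p' = t3 ∧ q' = t1 ∧ r' = t2) → ¬(p' ≠ t3 ∧ q' ≠ t1 ∧ r' ≠ t2) →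
    twoNeg p q r = twoNeg p' q' r' →
    (p = p' ∧ t1 = t2) ∨ (q = q' ∧ t2 = t3) ∨ (r = r' ∧ t3 = t1) := by
  intro p q r p' q' r' t1 t2 t3
  cases p <;> cases q <;> cases r <;> cases p' <;> cases q' <;> cases r' <;>
    cases t1 <;> cases t2 <;> cases t3 <;> simp [twoNeg]

/-- The sign of a real number as a Boolean. -/
noncomputable def sg (x : ℝ) : Bool := decide (0 < x)

lemma mul_pos_iff_sg {x y : ℝ} (hx : x ≠ 0) (hy : y ≠ 0) : 0 < x * y ↔ sg x = sg y := by
  unfold sg
  rcases lt_or_gt_of_ne hx with h1 | h1 <;> rcases lt_or_gt_of_ne hy with h2 | h2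
  · simp [mul_pos_of_neg_of_neg h1 h2, not_lt.mpr h1.le, not_lt.mpr h2.le]
  · simp [not_lt.mpr h1.le, h2]
  · simp [h1, not_lt.mpr h2.le]
  · simp [mul_pos h1 h2, h1, h2]

lemma sum_three_zero {u v w : ℝ} (h : u + v + w = 0) : ¬(0 < u ∧ 0 < v ∧ 0 < w) ∧
    ¬(u < 0 ∧ v < 0 ∧ w < 0) := by
  constructor
  · rintro ⟨h1, h2, h3⟩
    linarith
  · rintro ⟨h1, h2, h3⟩
    linarith

lemma neg_of_mul_of_sg_ne {x y : ℝ} (hx : x ≠ 0) (hy : y ≠ 0) (h : sg x ≠ sg y) : x * y < 0 := by
  by_contra hh
  push Not at hh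
  rcases hh.lt_or_eq with h1 | h1
  · exact h ((mul_pos_iff_sg hx hy).mp h1)
  · exact mul_ne_zero hx hy h1.symm

lemma tri_sign (x1 x2 x3 u v : ℝ × ℝ)
    (ht1 : orient u v x1 ≠ 0) (ht2 : orient u v x2 ≠ 0) (ht3 : orient u v x3 ≠ 0)
    (h1 : orient x1 x2 u ≠ 0) (h2 : orient x2 x3 u ≠ 0) (h3 : orient x3 x1 u ≠ 0)
    (h1' : orient x1 x2 v ≠ 0) (h2' : orient x2 x3 v ≠ 0) (h3' : orient x3 x1 v ≠ 0)
    (hcl : twoNeg (sg (orient x1 x2 u)) (sg (orient x2 x3 u)) (sg (orient x3 x1 u)) =
      twoNeg (sg (orient x1 x2 v)) (sg (orient x2 x3 v)) (sg (orient x3 x1 v))) :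
    (0 < orient x1 x2 u * orient x1 x2 v ∧ 0 < orient u v x1 * orient u v x2) ∨
    (0 < orient x2 x3 u * orient x2 x3 v ∧ 0 < orient u v x2 * orient u v x3) ∨
    (0 < orient x3 x1 u * orient x3 x1 v ∧ 0 < orient u v x3 * orient u v x1) := by
  have id1 : orient x1 x2 u * orient u v x3 + orient x2 x3 u * orient u v x1 +
      orient x3 x1 u * orient u v x2 = 0 := by
    simp only [orient]; ring
  have id2 : orient x1 x2 v * orient u v x3 + orient x2 x3 v * orient u v x1 +
      orient x3 x1 v * orient u v x2 = 0 := by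
    simp only [orient]; ring
  have c1 := sum_three_zero id1
  have c2 := sum_three_zero id2
  have key := tri_bool _ _ _ _ _ _ (sg (orient u v x1)) (sg (orient u v x2)) (sg (orient u v x3))
    (fun h => c1.1 ⟨(mul_pos_iff_sg h1 ht3).mpr h.1, (mul_pos_iff_sg h2 ht1).mpr h.2.1,
      (mul_pos_iff_sg h3 ht2).mpr h.2.2⟩)
    (fun h => c1.2 ⟨neg_of_mul_of_sg_ne h1 ht3 h.1, neg_of_mul_of_sg_ne h2 ht1 h.2.1,
      neg_of_mul_of_sg_ne h3 ht2 h.2.2⟩)
    (fun h => c2.1 ⟨(mul_pos_iff_sg h1' ht3).mpr h.1, (mul_pos_iff_sg h2' ht1).mpr h.2.1,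
      (mul_pos_iff_sg h3' ht2).mpr h.2.2⟩)
    (fun h => c2.2 ⟨neg_of_mul_of_sg_ne h1' ht3 h.1, neg_of_mul_of_sg_ne h2' ht1 h.2.1,
      neg_of_mul_of_sg_ne h3' ht2 h.2.2⟩)
    hcl
  rcases key with ⟨k1, k2⟩ | ⟨k1, k2⟩ | ⟨k1, k2⟩
  · exact Or.inl ⟨(mul_pos_iff_sg h1 h1').mpr k1, (mul_pos_iff_sg ht1 ht2).mpr k2⟩
  · exact Or.inr (Or.inl ⟨(mul_pos_iff_sg h2 h2').mpr k1, (mul_pos_iff_sg ht2 ht3).mpr k2⟩)
  · exact Or.inr (Or.inr ⟨(mul_pos_iff_sg h3 h3').mpr k1, (mul_pos_iff_sg ht3 ht1).mpr k2⟩)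

/-! ### Counting -/

/-- Ordered pairs in a set, listed in increasing order. -/
lemma two_mul_card_lt {ι : Type*} [DecidableEq ι] [LinearOrder ι] (T : Finset ι) :
    2 * ((T ×ˢ T).filter fun q => q.1 < q.2).card = T.card * (T.card - 1) := by
  have hsplit : T.offDiag = ((T ×ˢ T).filter fun q => q.1 < q.2) ∪
      ((T ×ˢ T).filter fun q => q.2 < q.1) := by
    ext ⟨k, l⟩
    simp only [mem_offDiag, mem_union, mem_filter, mem_product]
    constructor
    · rintro ⟨hk, hl, hne⟩
      rcases lt_or_gt_of_ne hne with h | h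
      · exact Or.inl ⟨⟨hk, hl⟩, h⟩
      · exact Or.inr ⟨⟨hk, hl⟩, h⟩
    · rintro (⟨⟨hk, hl⟩, h⟩ | ⟨⟨hk, hl⟩, h⟩)
      · exact ⟨hk, hl, ne_of_lt h⟩
      · exact ⟨hk, hl, ne_of_gt h⟩
  have hdisj : Disjoint ((T ×ˢ T).filter fun q => q.1 < q.2)
      ((T ×ˢ T).filter fun q => q.2 < q.1) := by
    rw [Finset.disjoint_left]
    intro q h1 h2
    simp only [mem_filter] at h1 h2
    exact lt_asymm h1.2 h2.2
  have hswap : ((T ×ˢ T).filter fun q => q.2 < q.1).card =
      ((T ×ˢ T).filter fun q => q.1 < q.2).card := by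
    refine Finset.card_bij (fun q _ => (q.2, q.1)) ?_ ?_ ?_
    · intro q hq
      simp only [mem_filter, mem_product] at hq ⊢
      exact ⟨⟨hq.1.2, hq.1.1⟩, hq.2⟩
    · rintro ⟨a1, a2⟩ _ ⟨b1, b2⟩ _ h
      simp only [Prod.mk.injEq] at h
      exact Prod.ext h.2 h.1
    · rintro ⟨a1, a2⟩ h
      refine ⟨(a2, a1), ?_, rfl⟩
      simp only [mem_filter, mem_product] at h ⊢
      exact ⟨⟨h.1.2, h.1.1⟩, h.2⟩
  have hoff := Finset.offDiag_card T
  rw [hsplit, card_union_of_disjoint hdisj, hswap] at hoff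
  rw [two_mul, hoff, Nat.mul_sub, mul_one]

lemma two_zFactor_le (l r : ℕ) : 2 * zFactor (l + r) ≤ l * (l - 1) + r * (r - 1) := by
  have hl : l * (l - 1) + l = l * l := by
    cases l with
    | zero => simp
    | succ c => simp only [Nat.add_sub_cancel]; ring
  have hr : r * (r - 1) + r = r * r := by
    cases r with
    | zero => simp
    | succ c => simp only [Nat.add_sub_cancel]; ring
  rcases Nat.even_or_odd' (l + r) with ⟨t, ht | ht⟩
  · have hz : zFactor (l + r) = t * (t - 1) := by
      unfold zFactor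
      rw [ht]
      have h1 : 2 * t / 2 = t := by omega
      have h2 : (2 * t - 1) / 2 = t - 1 := by omega
      rw [h1, h2]
    have ht1 : t * (t - 1) + t = t * t := by
      cases t with
      | zero => simp
      | succ c => simp only [Nat.add_sub_cancel]; ring
    rw [hz]
    have key : 2 * (t * t) ≤ l * l + r * r := by
      zify at ht ⊢
      nlinarith [sq_nonneg ((l : ℤ) - r)]
    omega
  · have hz : zFactor (l + r) = t * t := by
      unfold zFactor
      rw [ht]
      have h1 : (2 * t + 1) / 2 = t := by omega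
      have h2 : (2 * t + 1 - 1) / 2 = t := by omega
      rw [h1, h2]
    rw [hz]
    have key : 2 * (t * t) + (l + r) ≤ l * l + r * r := by
      rw [ht]
      zify at ht ⊢
      have hrr : (r : ℤ) = 2 * t + 1 - l := by linarith
      rw [hrr]
      have hcons : 0 ≤ ((l : ℤ) - t) * ((l : ℤ) - t - 1) := by
        rcases le_or_gt (l : ℤ) t with h | h
        · exact mul_nonneg_of_nonpos_of_nonpos (by linarith) (by linarith)
        · exact mul_nonneg (by linarith) (by linarith)
      nlinarith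
    omega

lemma two_zFactor_le_real (l r : ℕ) :
    2 * (zFactor (l + r) : ℝ) ≤ (l : ℝ) * (l - 1) + (r : ℝ) * (r - 1) := by
  have h := two_zFactor_le l r
  have hl : ((l * (l - 1) : ℕ) : ℝ) = (l : ℝ) * (l - 1) := by
    cases l with
    | zero => simp
    | succ c => simp
  have hr : ((r * (r - 1) : ℕ) : ℝ) = (r : ℝ) * (r - 1) := by
    cases r with
    | zero => simp
    | succ c => simp
  have h' : ((2 * zFactor (l + r) : ℕ) : ℝ) ≤ ((l * (l - 1) + r * (r - 1) : ℕ) : ℝ) := by
    exact_mod_cast h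
  rw [Nat.cast_add, hl, hr] at h'
  push_cast at h'
  exact h'

/-- Any set of ordered pairs containing the increasing pairs inside the two classes of a predicate has
at least `zFactor m` elements. -/
lemma zFactor_le_of_classes {m : ℕ} (Q : Fin m → Prop) [DecidablePred Q]
    (V : Finset (Fin m × Fin m)) (hV : ∀ k l, k < l → (Q k ↔ Q l) → (k, l) ∈ V) :
    zFactor m ≤ V.card := by
  let L : Finset (Fin m) := univ.filter Q
  let R : Finset (Fin m) := univ.filter fun k => ¬ Q k
  have hLR : L.card + R.card = m := by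
    have := Finset.card_filter_add_card_filter_not (s := (univ : Finset (Fin m))) Q
    simpa [L, R] using this
  let SL : Finset (Fin m × Fin m) := (L ×ˢ L).filter fun q => q.1 < q.2
  let SR : Finset (Fin m × Fin m) := (R ×ˢ R).filter fun q => q.1 < q.2
  have hdisj : Disjoint SL SR := by
    rw [Finset.disjoint_left]
    intro q h1 h2
    simp only [SL, SR, L, R, mem_filter, mem_product, mem_univ, true_and] at h1 h2
    exact h2.1.1 h1.1.1
  have hsub : SL ∪ SR ⊆ V := by
    rintro ⟨k, l⟩ hq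
    simp only [SL, SR, L, R, mem_union, mem_filter, mem_product, mem_univ, true_and] at hq
    rcases hq with ⟨⟨h1, h2⟩, h3⟩ | ⟨⟨h1, h2⟩, h3⟩
    · exact hV k l h3 ⟨fun _ => h2, fun _ => h1⟩
    · exact hV k l h3 ⟨fun h => absurd h h1, fun h => absurd h h2⟩
  have h1 := two_mul_card_lt L
  have h2 := two_mul_card_lt R
  have h3 := two_zFactor_le L.card R.card
  rw [hLR] at h3
  have h4 := card_le_card hsub
  rw [card_union_of_disjoint hdisj] at h4
  simp only [SL, SR] at h4
  omega

/-! ### The combinatorial assembly -/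

/-- The numerical heart: triple inequalities between the four classes of sizes `x ≥ y ≥ z ≥ w`. -/
lemma four_classes {x y z w D Sxy Sxz Sxw Syz Syw Szw : ℝ}
    (hw : 0 ≤ w) (hzw : w ≤ z) (hyz : z ≤ y) (hxy : y ≤ x)
    (h1 : 0 ≤ Sxy) (h2 : 0 ≤ Sxz) (h3 : 0 ≤ Sxw)
    (T1 : x * y * z * D ≤ z * Sxy + x * Syz + y * Sxz)
    (T2 : x * y * w * D ≤ w * Sxy + x * Syw + y * Sxw)
    (T3 : x * z * w * D ≤ w * Sxz + x * Szw + z * Sxw)
    (T4 : y * z * w * D ≤ w * Syz + y * Szw + z * Syw)
    (h4 : 0 ≤ Syz) (h5 : 0 ≤ Syw) (h6 : 0 ≤ Szw) :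
    (y + z ≤ x ∧ (y * z + y * w + z * w) * D ≤ Sxy + Sxz + Sxw + Syz + Syw + Szw) ∨
    (x ≤ y + z ∧ (x * w + y * z) * D ≤ Sxy + Sxz + Sxw + Syz + Syw + Szw) := by
  have hS : 0 ≤ Sxy + Sxz + Sxw + Syz + Syw + Szw := by positivity
  rcases le_total (y + z) x with hcase | hcase
  · left
    refine ⟨hcase, ?_⟩
    rcases (lt_or_eq_of_le (le_trans (le_trans (le_trans hw hzw) hyz) hxy)) with hx | hx
    · have s1 : 0 ≤ (x - z - w) * Sxy := mul_nonneg (by linarith) h1
      have s2 : 0 ≤ (x - y - w) * Sxz := mul_nonneg (by linarith) h2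
      have s3 : 0 ≤ (x - y - z) * Sxw := mul_nonneg (by linarith) h3
      refine le_of_mul_le_mul_left ?_ hx
      nlinarith [T1, T2, T3, s1, s2, s3]
    · have hy0 : y = 0 := by linarith [le_trans (le_trans hw hzw) hyz]
      have hz0 : z = 0 := by linarith
      rw [hy0, hz0]
      simpa using hS
  · right
    refine ⟨hcase, ?_⟩
    rcases (lt_or_eq_of_le (le_trans hw hzw)) with hz | hz
    · have hy : 0 < y := by linarith
      have hx : 0 < x := by linarith
      have ha : 0 ≤ 2 * y * z - w * (z + y - x) := by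
        have q1 : 0 ≤ w * (x - y) := mul_nonneg hw (sub_nonneg.mpr hxy)
        have q2 : 0 ≤ (y - w) * z := mul_nonneg (by linarith) hz.le
        have q3 : 0 < y * z := mul_pos hy hz
        nlinarith [q1, q2, q3]
      have hb : 0 ≤ z * (x + y - z) := mul_nonneg hz.le (by linarith)
      have hc : 0 ≤ y * (z + x - y) := mul_nonneg hy.le (by linarith)
      have he : 0 ≤ x * (z + y - x) := mul_nonneg hx.le (by linarith)
      have m1 := mul_le_mul_of_nonneg_left T1 ha
      have m2 := mul_le_mul_of_nonneg_left T2 hb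
      have m3 := mul_le_mul_of_nonneg_left T3 hc
      have m4 := mul_le_mul_of_nonneg_left T4 he
      have s1 : 0 ≤ 2 * z * (x - z) * (y - w) * Sxy :=
        mul_nonneg (mul_nonneg (mul_nonneg (by linarith) (by linarith)) (by linarith)) h1
      have s2 : 0 ≤ 2 * y * (x - y) * (z - w) * Sxz :=
        mul_nonneg (mul_nonneg (mul_nonneg (by linarith) (by linarith)) (by linarith)) h2
      have hpos : 0 < 2 * x * y * z := by positivity
      refine le_of_mul_le_mul_left ?_ hpos
      nlinarith [m1, m2, m3, m4, s1, s2]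
    · have hz0 : z = 0 := hz.symm
      have hw0 : w = 0 := by linarith
      rw [hz0, hw0]
      simpa using hS

section assembly

variable {n : ℕ}

/-- The sum of `f` over a pair of index sets. -/
def pairSum (f : Fin n → Fin n → ℝ) (X Y : Finset (Fin n)) : ℝ := ∑ i ∈ X, ∑ j ∈ Y, f i j

lemma pairSum_nonneg (f : Fin n → Fin n → ℝ) (hf : ∀ i j, 0 ≤ f i j) (X Y : Finset (Fin n)) :
    0 ≤ pairSum f X Y :=
  Finset.sum_nonneg fun _ _ => Finset.sum_nonneg fun _ _ => hf _ _

lemma pairSum_comm (f : Fin n → Fin n → ℝ) (hf : ∀ i j, f i j = f j i) (X Y : Finset (Fin n)) :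
    pairSum f X Y = pairSum f Y X := by
  unfold pairSum
  rw [Finset.sum_comm]
  exact Finset.sum_congr rfl fun _ _ => Finset.sum_congr rfl fun _ _ => hf _ _

lemma tri_avg (f : Fin n → Fin n → ℝ) (D : ℝ) (X Y Z : Finset (Fin n))
    (hXY : Disjoint X Y) (hYZ : Disjoint Y Z) (hXZ : Disjoint X Z)
    (htri : ∀ i j h, i ≠ j → j ≠ h → i ≠ h → D ≤ f i j + f j h + f i h) :
    (X.card : ℝ) * Y.card * Z.card * D ≤
      Z.card * pairSum f X Y + X.card * pairSum f Y Z + Y.card * pairSum f X Z := by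
  have h : ∑ i ∈ X, ∑ j ∈ Y, ∑ h ∈ Z, D ≤ ∑ i ∈ X, ∑ j ∈ Y, ∑ h ∈ Z, (f i j + f j h + f i h) := by
    refine Finset.sum_le_sum fun i hi => Finset.sum_le_sum fun j hj => Finset.sum_le_sum fun h hh => ?_
    exact htri i j h (Finset.disjoint_left.mp hXY hi |> fun g e => g (e ▸ hj))
      (Finset.disjoint_left.mp hYZ hj |> fun g e => g (e ▸ hh))
      (Finset.disjoint_left.mp hXZ hi |> fun g e => g (e ▸ hh))
  have e1 : ∑ i ∈ X, ∑ j ∈ Y, ∑ h ∈ Z, D = (X.card : ℝ) * Y.card * Z.card * D := by
    simp only [Finset.sum_const, nsmul_eq_mul]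
    ring
  have e2 : ∑ i ∈ X, ∑ j ∈ Y, ∑ h ∈ Z, (f i j + f j h + f i h) =
      Z.card * pairSum f X Y + X.card * pairSum f Y Z + Y.card * pairSum f X Z := by
    unfold pairSum
    have a1 : ∀ i j, ∑ h ∈ Z, (f i j + f j h + f i h) =
        Z.card * f i j + ∑ h ∈ Z, f j h + ∑ h ∈ Z, f i h := by
      intro i j
      rw [Finset.sum_add_distrib, Finset.sum_add_distrib]
      simp
    simp only [a1, Finset.sum_add_distrib]
    congr 1
    · congr 1
      · simp only [Finset.mul_sum]
      · simp only [Finset.sum_const, nsmul_eq_mul]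
    · simp only [Finset.sum_const, nsmul_eq_mul]
      simp only [Finset.mul_sum]
  rw [e1, e2] at h
  exact h

lemma same_lower (f : Fin n → Fin n → ℝ) (D : ℝ) (hf : ∀ i j, 0 ≤ f i j) (X : Finset (Fin n))
    (hsame : ∀ i ∈ X, ∀ j ∈ X, i ≠ j → D ≤ f i j) :
    (X.card : ℝ) * (X.card - 1) * D ≤ pairSum f X X := by
  unfold pairSum
  have h : ∀ i ∈ X, ((X.card : ℝ) - 1) * D ≤ ∑ j ∈ X, f i j := by
    intro i hi
    have h1 : ∑ j ∈ X.erase i, D ≤ ∑ j ∈ X.erase i, f i j :=
      Finset.sum_le_sum fun j hj => hsame i hi j (Finset.mem_of_mem_erase hj) (Finset.ne_of_mem_erase hj).symm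
    have h2 : ∑ j ∈ X.erase i, f i j ≤ ∑ j ∈ X, f i j :=
      Finset.sum_le_sum_of_subset_of_nonneg (Finset.erase_subset _ _) fun _ _ _ => hf _ _
    have h3 : ∑ j ∈ X.erase i, D = ((X.card : ℝ) - 1) * D := by
      rw [Finset.sum_const, Finset.card_erase_of_mem hi, nsmul_eq_mul,
        Nat.cast_sub (Finset.card_pos.mpr ⟨i, hi⟩)]
      simp
    linarith
  have h2 := Finset.sum_le_sum h
  rw [Finset.sum_const, nsmul_eq_mul] at h2
  linarith

/-- The combinatorial core, for a colouring whose classes have sorted sizes. -/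
lemma assemble_sorted (f : Fin n → Fin n → ℝ) (D : ℝ) (hD : 0 ≤ D)
    (hf : ∀ i j, 0 ≤ f i j) (hsym : ∀ i j, f i j = f j i) (c : Fin n → Fin 4)
    (hsame : ∀ i j, i ≠ j → c i = c j → D ≤ f i j)
    (htri : ∀ i j h, i ≠ j → j ≠ h → i ≠ h → D ≤ f i j + f j h + f i h)
    (hs : Monotone fun t : Fin 4 => (univ.filter fun i => c i = t).card) :
    D * (2 * (zFactor n : ℝ)) ≤ ∑ i, ∑ j, f i j := by
  let cls : Fin 4 → Finset (Fin n) := fun t => univ.filter fun i => c i = t
  have hdisj : ∀ s t : Fin 4, s ≠ t → Disjoint (cls s) (cls t) := by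
    intro s t hst
    rw [Finset.disjoint_left]
    intro i h1 h2
    simp only [cls, mem_filter, mem_univ, true_and] at h1 h2
    exact hst (h1.symm.trans h2)
  have hfib : ∀ g : Fin n → ℝ, ∑ i, g i = ∑ t : Fin 4, ∑ i ∈ cls t, g i := by
    intro g
    exact (Finset.sum_fiberwise (univ : Finset (Fin n)) c g).symm
  have htotal : ∑ i, ∑ j, f i j = ∑ s : Fin 4, ∑ t : Fin 4, pairSum f (cls s) (cls t) := by
    rw [hfib]
    refine Finset.sum_congr rfl fun s _ => ?_
    have : ∀ i, ∑ j, f i j = ∑ t : Fin 4, ∑ j ∈ cls t, f i j := fun i => hfib (f i)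
    simp only [this]
    rw [Finset.sum_comm]
    rfl
  have hcard : (cls 0).card + (cls 1).card + (cls 2).card + (cls 3).card = n := by
    have h := Finset.card_eq_sum_card_fiberwise (f := c) (s := univ) (t := univ)
      (fun _ _ => Finset.mem_coe.mpr (Finset.mem_univ _))
    simp only [Fin.sum_univ_four, Finset.card_univ, Fintype.card_fin] at h
    simp only [cls]
    omega
  set x : ℝ := ((cls 3).card : ℝ) with hx
  set y : ℝ := ((cls 2).card : ℝ) with hy
  set z : ℝ := ((cls 1).card : ℝ) with hz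
  set w : ℝ := ((cls 0).card : ℝ) with hw
  have hw0 : 0 ≤ w := Nat.cast_nonneg _
  have hzw : w ≤ z := by
    have h : (cls 0).card ≤ (cls 1).card := hs (show (0 : Fin 4) ≤ 1 by decide)
    exact Nat.cast_le.mpr h
  have hyz : z ≤ y := by
    have h : (cls 1).card ≤ (cls 2).card := hs (show (1 : Fin 4) ≤ 2 by decide)
    exact Nat.cast_le.mpr h
  have hxy : y ≤ x := by
    have h : (cls 2).card ≤ (cls 3).card := hs (show (2 : Fin 4) ≤ 3 by decide)
    exact Nat.cast_le.mpr h
  have Sne := pairSum_nonneg f hf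
  have Sco := pairSum_comm f hsym
  have dn : ∀ s t : Fin 4, s ≠ t → Disjoint (cls s) (cls t) := hdisj
  have T1 := tri_avg f D (cls 3) (cls 2) (cls 1) (dn _ _ (by decide)) (dn _ _ (by decide))
    (dn _ _ (by decide)) htri
  have T2 := tri_avg f D (cls 3) (cls 2) (cls 0) (dn _ _ (by decide)) (dn _ _ (by decide))
    (dn _ _ (by decide)) htri
  have T3 := tri_avg f D (cls 3) (cls 1) (cls 0) (dn _ _ (by decide)) (dn _ _ (by decide))
    (dn _ _ (by decide)) htri
  have T4 := tri_avg f D (cls 2) (cls 1) (cls 0) (dn _ _ (by decide)) (dn _ _ (by decide))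
    (dn _ _ (by decide)) htri
  have Hsame : ∀ t : Fin 4, ((cls t).card : ℝ) * ((cls t).card - 1) * D ≤ pairSum f (cls t) (cls t) := by
    intro t
    refine same_lower f D hf (cls t) ?_
    intro i hi j hj hij
    simp only [cls, mem_filter, mem_univ, true_and] at hi hj
    exact hsame i j hij (hi.trans hj.symm)
  have H0 : w * (w - 1) * D ≤ pairSum f (cls 0) (cls 0) := Hsame 0
  have H1 : z * (z - 1) * D ≤ pairSum f (cls 1) (cls 1) := Hsame 1
  have H2 : y * (y - 1) * D ≤ pairSum f (cls 2) (cls 2) := Hsame 2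
  have H3 : x * (x - 1) * D ≤ pairSum f (cls 3) (cls 3) := Hsame 3
  rw [htotal]
  simp only [Fin.sum_univ_four]
  rw [Sco (cls 0) (cls 1), Sco (cls 0) (cls 2), Sco (cls 0) (cls 3), Sco (cls 1) (cls 2),
    Sco (cls 1) (cls 3), Sco (cls 2) (cls 3)]
  rcases four_classes hw0 hzw hyz hxy (Sne (cls 3) (cls 2)) (Sne (cls 3) (cls 1))
      (Sne (cls 3) (cls 0)) T1 T2 T3 T4 (Sne (cls 2) (cls 1)) (Sne (cls 2) (cls 0))
      (Sne (cls 1) (cls 0)) with ⟨_, hm⟩ | ⟨_, hm⟩
  · have hnum := two_zFactor_le_real (cls 3).card ((cls 2).card + (cls 1).card + (cls 0).card)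
    have hn : (cls 3).card + ((cls 2).card + (cls 1).card + (cls 0).card) = n := by omega
    rw [hn] at hnum
    have hcast : (((cls 2).card + (cls 1).card + (cls 0).card : ℕ) : ℝ) = y + z + w := by
      push_cast
      rfl
    rw [hcast] at hnum
    have hmul := mul_le_mul_of_nonneg_left hnum hD
    have e : D * (x * (x - 1) + (y + z + w) * (y + z + w - 1)) = x * (x - 1) * D + y * (y - 1) * D +
        z * (z - 1) * D + w * (w - 1) * D + 2 * ((y * z + y * w + z * w) * D) := by ring
    rw [e] at hmul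
    linarith
  · have hnum := two_zFactor_le_real ((cls 3).card + (cls 0).card) ((cls 2).card + (cls 1).card)
    have hn : (cls 3).card + (cls 0).card + ((cls 2).card + (cls 1).card) = n := by omega
    rw [hn] at hnum
    have hcast : (((cls 2).card + (cls 1).card : ℕ) : ℝ) = y + z := by
      push_cast
      rfl
    have hcast' : (((cls 3).card + (cls 0).card : ℕ) : ℝ) = x + w := by
      push_cast
      rfl
    rw [hcast, hcast'] at hnum
    have hmul := mul_le_mul_of_nonneg_left hnum hD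
    have e : D * ((x + w) * (x + w - 1) + (y + z) * (y + z - 1)) = x * (x - 1) * D + y * (y - 1) * D +
        z * (z - 1) * D + w * (w - 1) * D + 2 * ((x * w + y * z) * D) := by ring
    rw [e] at hmul
    linarith

/-- The combinatorial core: a symmetric nonnegative weight on pairs, at least `D` inside the classes of a
four-colouring, with weight at least `D` on every triangle. -/
lemma assemble (f : Fin n → Fin n → ℝ) (D : ℝ) (hD : 0 ≤ D)
    (hf : ∀ i j, 0 ≤ f i j) (hsym : ∀ i j, f i j = f j i) (c : Fin n → Fin 4)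
    (hsame : ∀ i j, i ≠ j → c i = c j → D ≤ f i j)
    (htri : ∀ i j h, i ≠ j → j ≠ h → i ≠ h → D ≤ f i j + f j h + f i h) :
    D * (2 * (zFactor n : ℝ)) ≤ ∑ i, ∑ j, f i j := by
  let size : Fin 4 → ℕ := fun t => (univ.filter fun i => c i = t).card
  let σ : Equiv.Perm (Fin 4) := Tuple.sort size
  have hmono : Monotone (size ∘ σ) := Tuple.monotone_sort size
  refine assemble_sorted f D hD hf hsym (fun i => σ.symm (c i)) ?_ htri ?_
  · intro i j hij h
    exact hsame i j hij (σ.symm.injective h)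
  · intro s t hst
    have e : ∀ t : Fin 4, (univ.filter fun i => σ.symm (c i) = t).card = size (σ t) := by
      intro t
      simp only [size]
      congr 1
      ext i
      simp only [mem_filter, mem_univ, true_and]
      constructor
      · intro h
        rw [← h]
        simp
      · intro h
        rw [h]
        simp
    simp only [e]
    exact hmono hst

end assembly

/-! ### The geometric input -/

section geometry

variable {m n : ℕ} (a : Fin m → ℝ × ℝ) (b : Fin n → ℝ × ℝ)

open Classical in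
/-- The crossing pairs between the stars of `b i` and `b j`. -/
noncomputable def crossSet (i j : Fin n) : Finset (Fin m × Fin m) :=
  univ.filter fun kl => kl.1 ≠ kl.2 ∧
    (openSegment ℝ (b i) (a kl.1) ∩ openSegment ℝ (b j) (a kl.2)).Nonempty

open Classical in
/-- The increasing pairs of feet joined by a crossing between the stars of `b i` and `b j`. -/
noncomputable def incSet (i j : Fin n) : Finset (Fin m × Fin m) :=
  univ.filter fun kl => kl.1 < kl.2 ∧
    ((openSegment ℝ (b i) (a kl.1) ∩ openSegment ℝ (b j) (a kl.2)).Nonempty ∨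
      (openSegment ℝ (b i) (a kl.2) ∩ openSegment ℝ (b j) (a kl.1)).Nonempty)

lemma card_incSet_le (i j : Fin n) : (incSet a b i j).card ≤ (crossSet a b i j).card := by
  classical
  refine Finset.card_le_card_of_injOn
    (fun kl => if (openSegment ℝ (b i) (a kl.1) ∩ openSegment ℝ (b j) (a kl.2)).Nonempty
      then kl else (kl.2, kl.1)) ?_ ?_
  · rintro ⟨k, l⟩ hkl
    simp only [incSet, coe_filter, mem_univ, true_and, Set.mem_ofPred_eq] at hkl
    obtain ⟨hlt, h⟩ := hkl
    by_cases hc : (openSegment ℝ (b i) (a k) ∩ openSegment ℝ (b j) (a l)).Nonempty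
    · simp only [if_pos hc, crossSet, coe_filter, mem_univ, true_and, Set.mem_ofPred_eq]
      exact ⟨ne_of_lt hlt, hc⟩
    · simp only [if_neg hc, crossSet, coe_filter, mem_univ, true_and, Set.mem_ofPred_eq]
      exact ⟨ne_of_gt hlt, h.resolve_left hc⟩
  · rintro ⟨k, l⟩ hkl ⟨k', l'⟩ hkl' he
    simp only [incSet, coe_filter, mem_univ, true_and, Set.mem_ofPred_eq] at hkl hkl'
    have h1 := hkl.1
    have h2 := hkl'.1
    simp only at he
    split_ifs at he
    · exact he
    · simp only [Prod.mk.injEq] at he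
      obtain ⟨rfl, rfl⟩ := he
      exact absurd h1 (lt_asymm h2)
    · simp only [Prod.mk.injEq] at he
      obtain ⟨rfl, rfl⟩ := he
      exact absurd h1 (lt_asymm h2)
    · simp only [Prod.mk.injEq] at he
      obtain ⟨rfl, rfl⟩ := he
      rfl

lemma card_crossSet_comm (i j : Fin n) : (crossSet a b i j).card = (crossSet a b j i).card := by
  classical
  refine Finset.card_bij (fun q _ => (q.2, q.1)) ?_ ?_ ?_
  · rintro ⟨k, l⟩ h
    simp only [crossSet, mem_filter, mem_univ, true_and] at h ⊢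
    exact ⟨h.1.symm, by rw [Set.inter_comm]; exact h.2⟩
  · rintro ⟨k, l⟩ _ ⟨k', l'⟩ _ h
    simp only [Prod.mk.injEq] at h
    exact Prod.ext h.2 h.1
  · rintro ⟨k, l⟩ h
    refine ⟨(l, k), ?_, rfl⟩
    simp only [crossSet, mem_filter, mem_univ, true_and] at h ⊢
    exact ⟨h.1.symm, by rw [Set.inter_comm]; exact h.2⟩

lemma zFactor_le_same
    (hB : ∀ i j k, i ≠ j → orient (b i) (b j) (a k) ≠ 0)
    (i j : Fin n) (hij : i ≠ j)
    (hc : ∀ k l, k ≠ l → 0 < orient (a k) (a l) (b i) * orient (a k) (a l) (b j)) :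
    zFactor m ≤ (crossSet a b i j).card := by
  classical
  refine le_trans ?_ (card_incSet_le a b i j)
  refine zFactor_le_of_classes (fun k => 0 < orient (b i) (b j) (a k)) _ ?_
  intro k l hlt hQ
  have h1 : 0 < orient (b i) (b j) (a k) * orient (b i) (b j) (a l) := by
    have hk := hB i j k hij
    have hl := hB i j l hij
    rcases lt_or_gt_of_ne hk with h | h
    · have : orient (b i) (b j) (a l) < 0 := by
        rcases lt_or_gt_of_ne hl with h' | h'
        · exact h'
        · exact absurd (hQ.mpr h') (not_lt.mpr h.le)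
      exact mul_pos_of_neg_of_neg h this
    · exact mul_pos h (hQ.mp h)
  simp only [incSet, mem_filter, mem_univ, true_and]
  exact ⟨hlt, cross_of_products _ _ _ _ h1 (hc k l (ne_of_lt hlt))⟩

lemma zFactor_le_triple
    (hA : ∀ k l i, k ≠ l → orient (a k) (a l) (b i) ≠ 0)
    (hB : ∀ i j k, i ≠ j → orient (b i) (b j) (a k) ≠ 0)
    (i j h : Fin n) (hij : i ≠ j) (hjh : j ≠ h) (hih : i ≠ h) :
    zFactor m ≤ (crossSet a b i j).card + (crossSet a b j h).card + (crossSet a b i h).card := by
  classical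
  have hU : zFactor m ≤ (incSet a b i j ∪ incSet a b j h ∪ incSet a b h i).card := by
    refine zFactor_le_of_classes (fun k => twoNeg (sg (orient (b i) (b j) (a k)))
      (sg (orient (b j) (b h) (a k))) (sg (orient (b h) (b i) (a k))) = true) _ ?_
    intro k l hlt hQ
    have hkl : k ≠ l := ne_of_lt hlt
    have hcl : twoNeg (sg (orient (b i) (b j) (a k))) (sg (orient (b j) (b h) (a k)))
        (sg (orient (b h) (b i) (a k))) = twoNeg (sg (orient (b i) (b j) (a l)))
        (sg (orient (b j) (b h) (a l))) (sg (orient (b h) (b i) (a l))) := by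
      by_cases hq : twoNeg (sg (orient (b i) (b j) (a k))) (sg (orient (b j) (b h) (a k)))
          (sg (orient (b h) (b i) (a k))) = true
      · rw [hq, hQ.mp hq]
      · have hq' : ¬ twoNeg (sg (orient (b i) (b j) (a l)))
          (sg (orient (b j) (b h) (a l))) (sg (orient (b h) (b i) (a l))) = true :=
          fun e => hq (hQ.mpr e)
        simp only [Bool.not_eq_true] at hq hq'
        rw [hq, hq']
    have key := tri_sign (b i) (b j) (b h) (a k) (a l) (hA k l i hkl) (hA k l j hkl) (hA k l h hkl)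
      (hB i j k hij) (hB j h k hjh) (hB h i k hih.symm) (hB i j l hij) (hB j h l hjh)
      (hB h i l hih.symm) hcl
    simp only [mem_union, incSet, mem_filter, mem_univ, true_and]
    rcases key with ⟨k1, k2⟩ | ⟨k1, k2⟩ | ⟨k1, k2⟩
    · exact Or.inl (Or.inl ⟨hlt, cross_of_products _ _ _ _ k1 k2⟩)
    · exact Or.inl (Or.inr ⟨hlt, cross_of_products _ _ _ _ k1 k2⟩)
    · exact Or.inr ⟨hlt, cross_of_products _ _ _ _ k1 k2⟩
  have h1 := card_union_le (incSet a b i j ∪ incSet a b j h) (incSet a b h i)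
  have h2 := card_union_le (incSet a b i j) (incSet a b j h)
  have h3 := card_incSet_le a b i j
  have h4 := card_incSet_le a b j h
  have h5 := card_incSet_le a b h i
  have h6 := card_crossSet_comm a b h i
  omega

lemma sum_crossSet_le :
    ∑ p ∈ (univ : Finset (Fin n × Fin n)).filter (fun p => p.1 < p.2),
      (crossSet a b p.1 p.2).card ≤ crossingCount a b := by
  classical
  unfold crossingCount
  rw [← Finset.card_sigma]
  refine Finset.card_le_card_of_injOn (fun x => (x.1, x.2)) ?_ ?_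
  · rintro ⟨p, kl⟩ hx
    simp only [Finset.coe_sigma, Set.mem_sigma_iff, mem_coe] at hx
    obtain ⟨hp, hkl⟩ := hx
    simp only [crossSet, mem_filter, mem_univ, true_and] at hkl hp
    simp only [coe_filter, mem_univ, true_and, Set.mem_ofPred_eq]
    exact ⟨hp, hkl.1, hkl.2⟩
  · rintro ⟨p, kl⟩ _ ⟨p', kl'⟩ _ h
    simp only [Prod.mk.injEq] at h
    obtain ⟨rfl, rfl⟩ := h
    rfl

end geometry

/-- **Zarankiewicz's bound when one class lies in at most four cells of the arrangement spanned by the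
other class.**  Consider a straight-line drawing of `K_{m,n}` in which no vertex lies on a line through
two vertices of the other class.  If the `b i` can be four-coloured so that no line through two of the
`a k` separates two `b i` of the same colour, the drawing has at least `d_m d_n` crossings. -/
theorem result {m n : ℕ} (a : Fin m → ℝ × ℝ) (b : Fin n → ℝ × ℝ)
    (hA : ∀ k l i, k ≠ l → orient (a k) (a l) (b i) ≠ 0)
    (hB : ∀ i j k, i ≠ j → orient (b i) (b j) (a k) ≠ 0)
    (c : Fin n → Fin 4)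
    (hc : ∀ i j k l, c i = c j → k ≠ l →
      0 < orient (a k) (a l) (b i) * orient (a k) (a l) (b j)) :
    zFactor m * zFactor n ≤ crossingCount a b := by
  classical
  let f : Fin n → Fin n → ℝ := fun i j => if i = j then 0 else ((crossSet a b i j).card : ℝ)
  have hf : ∀ i j, 0 ≤ f i j := by
    intro i j
    simp only [f]
    split_ifs
    · exact le_rfl
    · exact Nat.cast_nonneg _
  have hsym : ∀ i j, f i j = f j i := by
    intro i j
    simp only [f]
    by_cases h : i = j
    · simp [h]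
    · rw [if_neg h, if_neg (Ne.symm h), card_crossSet_comm a b i j]
  have hsame : ∀ i j, i ≠ j → c i = c j → (zFactor m : ℝ) ≤ f i j := by
    intro i j hij hcc
    simp only [f, if_neg hij]
    exact_mod_cast zFactor_le_same a b hB i j hij (fun k l hkl => hc i j k l hcc hkl)
  have htri : ∀ i j h, i ≠ j → j ≠ h → i ≠ h → (zFactor m : ℝ) ≤ f i j + f j h + f i h := by
    intro i j h hij hjh hih
    simp only [f, if_neg hij, if_neg hjh, if_neg hih]
    exact_mod_cast zFactor_le_triple a b hA hB i j h hij hjh hih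
  have hmain := assemble f (zFactor m : ℝ) (Nat.cast_nonneg _) hf hsym c hsame htri
  -- the double sum is twice the sum over increasing pairs
  have hdouble : ∑ i, ∑ j, f i j = 2 * ∑ p ∈ (univ : Finset (Fin n × Fin n)).filter (fun p => p.1 < p.2),
      ((crossSet a b p.1 p.2).card : ℝ) := by
    rw [← Finset.sum_product']
    have h1 : (univ : Finset (Fin n)) ×ˢ (univ : Finset (Fin n)) = univ := rfl
    rw [h1]
    rw [← Finset.sum_filter_add_sum_filter_not univ (fun p : Fin n × Fin n => p.1 < p.2)]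
    rw [← Finset.sum_filter_add_sum_filter_not (univ.filter fun p : Fin n × Fin n => ¬ p.1 < p.2)
      (fun p : Fin n × Fin n => p.2 < p.1)]
    have h2 : ∑ p ∈ (univ.filter fun p : Fin n × Fin n => ¬ p.1 < p.2).filter
        (fun p => ¬ p.2 < p.1), f p.1 p.2 = 0 := by
      refine Finset.sum_eq_zero ?_
      rintro ⟨i, j⟩ hp
      simp only [mem_filter, mem_univ, true_and, not_lt] at hp
      have : i = j := le_antisymm hp.2 hp.1
      simp [f, this]
    have h3 : ∑ p ∈ (univ.filter fun p : Fin n × Fin n => ¬ p.1 < p.2).filter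
        (fun p => p.2 < p.1), f p.1 p.2 =
        ∑ p ∈ univ.filter (fun p : Fin n × Fin n => p.1 < p.2), f p.1 p.2 := by
      refine Finset.sum_bij (fun p _ => (p.2, p.1)) ?_ ?_ ?_ ?_
      · rintro ⟨i, j⟩ hp
        simp only [mem_filter, mem_univ, true_and, not_lt] at hp ⊢
        exact hp.2
      · rintro ⟨i, j⟩ _ ⟨i', j'⟩ _ h
        simp only [Prod.mk.injEq] at h
        exact Prod.ext h.2 h.1
      · rintro ⟨i, j⟩ hp
        refine ⟨(j, i), ?_, rfl⟩
        simp only [mem_filter, mem_univ, true_and, not_lt] at hp ⊢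
        exact ⟨hp.le, hp⟩
      · rintro ⟨i, j⟩ _
        exact hsym i j
    have h4 : ∑ p ∈ univ.filter (fun p : Fin n × Fin n => p.1 < p.2), f p.1 p.2 =
        ∑ p ∈ univ.filter (fun p : Fin n × Fin n => p.1 < p.2),
          ((crossSet a b p.1 p.2).card : ℝ) := by
      refine Finset.sum_congr rfl ?_
      rintro ⟨i, j⟩ hp
      simp only [mem_filter, mem_univ, true_and] at hp
      simp only [f, if_neg (ne_of_lt hp)]
    rw [h2, h3, h4]
    ring
  have hle : (∑ p ∈ (univ : Finset (Fin n × Fin n)).filter (fun p => p.1 < p.2),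
      ((crossSet a b p.1 p.2).card : ℝ)) ≤ crossingCount a b := by
    exact_mod_cast sum_crossSet_le a b
  rw [hdouble] at hmain
  have hfinal : ((zFactor m : ℝ)) * zFactor n ≤ crossingCount a b := by
    nlinarith [hmain, hle]
  exact_mod_cast hfinal

end Vale.Agent.Results.P040.B_fourCells
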